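import Vale.Agent.P284.H213.Q.AsmQS
import Vale.Agent.P284.H837.SpS

/-!
# P284 (helper837), program N: statements

`X` is special (nothing is assumed on its finite étale coverings). All data are natural under the whole
group `Γ` of the covering `E → X`; `F` is equivariant under affine maps. (The statements of the modules
are in H213/N/S.lean, H494/N, H988/N.)
-/

open scoped Manifold ContDiff Topology Pointwise ComplexConjugate ComplexOrder ENNReal
open Filter Set Metric MeasureTheory

noncomputable section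

namespace Vale.Agent.P284.H837.N

open Vale.Agent.P272.K Vale.Agent.P284.H248 Vale.Agent.P284.H894 Vale.Agent.P284.H894.G
  Vale.Agent.P284.H998 Vale.Agent.P284.H213.Q Vale.Agent.P284.H573 Vale.Agent.P284.H837

/-- `F` is equivariant under affine maps. -/
def Aff (Γ : Type) {E : Type} [Group Γ] [MulAction Γ E] {q : ℕ} (F : E → Cm q) : Prop :=
  ∀ g : Γ, ∃ (A : Cm q ≃L[ℂ] Cm q) (b : Cm q), ∀ y, F (g • y) = A (F y) + b

theorem aff_of_trans {Γ : Type} {E : Type} [Group Γ] [MulAction Γ E] {q : ℕ} {F : E → Cm q}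
    {c : Γ → Cm q} (h : ∀ g y, F (g • y) = F y + c g) : Aff Γ F :=
  fun g => ⟨ContinuousLinearEquiv.refl ℂ (Cm q), c g, fun y => h g y⟩

theorem aff_of {Γ : Type} {E : Type} [Group Γ] [MulAction Γ E] {q : ℕ} {F : E → Cm q}
    {A : Γ → (Cm q ≃ₗ[ℂ] Cm q)} {c : Γ → Cm q} (h : ∀ g y, F (g • y) = A g (F y) + c g) :
    Aff Γ F :=
  fun g => ⟨(A g).toContinuousLinearEquiv, c g, fun y => h g y⟩

/-- `X` has no natural form of full rank, locally finite, on a Galois covering (`F` equivariant under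
affine maps). -/
def NoV (n : ℕ) (X : Type) [TopologicalSpace X] [ChartedSpace (Cm n) X] : Prop :=
  ∀ (E Γ : Type) [TopologicalSpace E] [ConnectedSpace E] [Group Γ] [MulAction Γ E]
    (p : E → X) (_ : IsGalois Γ p)
    (q : ℕ) (F : E → Cm q)
    (_ : ∀ (y : E) (e : Chart n X), At e (p y) → ∃ f : Cm n → Cm q,
      (∀ᶠ y' in 𝓝 y, F y' = f (e (p y'))) ∧ AnalyticAt ℂ f (e (p y)))
    (_ : Aff Γ F)
    (H : Type) [NormedAddCommGroup H] [InnerProductSpace ℂ H] [CompleteSpace H]
    (R m : ℕ) (_ : 1 ≤ R) (_ : 1 ≤ m) (v : E → Chart n X → (Fin R → Cm n) → H)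
    (_ : HForm n R m p H v) (_ : Eqv Γ p v)
    (_ : ∃ y₀ e b γ t, NFF m p v F y₀ e b γ t) (_ : LFin Γ m p v F),
    False

/-- the class of the manifolds with `NoV` -/
def noVC : Cls := fun n X _ _ => NoV n X

/-- **SP** for special projective manifolds, affine maps -/
def SpPN : Prop :=
  ∀ (n : ℕ) (X : Type) [TopologicalSpace X] [T2Space X] [CompactSpace X] [ConnectedSpace X]
    [ChartedSpace (Cm n) X] [IsManifold 𝓘(ℂ, Cm n) ω X] (ι : Type) [Fintype ι] (_ : PJ n X ι)
    (_ : Special n X), NoV n X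

/-- **SP** for special Kähler manifolds, affine maps -/
def SpKN : Prop :=
  ∀ (n : ℕ) (X : Type) [TopologicalSpace X] [T2Space X] [CompactSpace X] [ConnectedSpace X]
    [ChartedSpace (Cm n) X] [IsManifold 𝓘(ℂ, Cm n) ω X]
    (w : Chart n X → Cm n → Matrix (Fin n) (Fin n) ℂ) (_ : IsKahler w) (_ : Special n X), NoV n X

end Vale.Agent.P284.H837.N
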