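import Vale.Agent.P284.H501.Core.LFin
import Vale.Agent.P284.H885.Cov
import Vale.Agent.P284.H837.N.S

/-!
# P284 (helper837), program N, module N7: local finiteness under the whole group

`G` has finite index in `Γ`, `Y = E / G`, `π : Y → X`. A form `v` on `p : E → X` (norm invariant under
`Γ`) whose sheets are locally finite under `G` has the property `LFin` for `Γ`.
-/

open scoped Manifold ContDiff Topology
open Filter Set Metric

noncomputable section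

namespace Vale.Agent.P284.H837.N

open Vale.Agent.P272.K Vale.Agent.P284.H894 Vale.Agent.P284.H894.G Vale.Agent.P284.H573
  Vale.Agent.P284.H395 Vale.Agent.P284.H837 Vale.Agent.P284.H501.Core Vale.Agent.P284.H885
  Vale.Agent.P284.H619

section
variable {n q R m : ℕ} {X Y E Γ H : Type} [TopologicalSpace X] [TopologicalSpace Y]
  [ChartedSpace (Cm n) X] [ChartedSpace (Cm n) Y] [TopologicalSpace E] [Group Γ] [MulAction Γ E]
  [NormedAddCommGroup H] [InnerProductSpace ℂ H] {π : Y → X} {p : E → X} {pY : E → Y}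
  {v : E → Chart n X → (Fin R → Cm n) → H} {v' : E → Chart n Y → (Fin R → Cm n) → H}
  {F : E → Cm q}

/-- `v'` is `v` in the charts of `Y` -/
def BrEq (π : Y → X) (pY : E → Y) (v : E → Chart n X → (Fin R → Cm n) → H)
    (v' : E → Chart n Y → (Fin R → Cm n) → H) : Prop :=
  ∀ y (e' : Chart n Y) (e : Chart n X), At e' (pY y) → IsBranch π e' e → ∀ ξ, v' y e' ξ = v y e ξ

theorem nz_Y (hπ : Etale n π) (hcomp : ∀ y, π (pY y) = p y) (hrel : BrEq π pY v v') {y : E}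
    (h : NZ p v y) : NZ pY v' y := by
  obtain ⟨e, he, ξ, hξ⟩ := h
  rw [← hcomp] at he
  obtain ⟨e', he', hb⟩ := hπ.exists_branch he
  exact ⟨e', he', ξ, by rw [hrel y e' e he' hb]; exact hξ⟩

theorem sh_Y (hπ : Etale n π) (hcomp : ∀ y, π (pY y) = p y) (hpY : IsCoveringMap pY)
    (hrel : BrEq π pY v v') (D : LeafDat q R 0 H) {y : E} {x : Cm R}
    (h : Sh0 p v F D.γ D.t y x) : Sh pY v' F D y x := by
  obtain ⟨e, β, h1, h2, h3, h4⟩ := h
  rw [← hcomp] at h1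
  obtain ⟨e', he', hb⟩ := hπ.exists_branch h1
  have hx : e' (pY y) = e (p y) := by rw [hb.apply, hcomp]
  refine ⟨e', β, he', by rw [hx]; exact h2, by rw [hx]; exact h3, ?_⟩
  have hat : ∀ᶠ y' in 𝓝 y, At e' (pY y') := by
    filter_upwards [hpY.continuous.continuousAt.eventually (e'.open_source.mem_nhds he'.2)] with y' h
    exact ⟨he'.1, h⟩
  filter_upwards [h4, hat] with y' k1 k2
  have hx' : e' (pY y') = e (p y') := by rw [hb.apply, hcomp]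
  rw [hx']
  refine ⟨fun ξ => ?_, ?_⟩
  · obtain ⟨a, ha⟩ := k1.1 ξ
    exact ⟨a, by rw [hrel y' e' e k2 hb]; exact ha⟩
  · rw [k1.2, sub_self]
    exact zero_mem _

/-- **N7** -/
theorem lfin_big (hπ : Etale n π) (hcomp : ∀ y, π (pY y) = p y) (hG : IsGalois Γ p)
    (hpY : IsCoveringMap pY) (G : Subgroup Γ) (hfi : G.FiniteIndex) (hv : HForm n R m p H v)
    (hrel : BrEq π pY v v') (N : Cm 0 →L[ℂ] Cm q)
    (hlf : ∀ (D : LeafDat q R 0 H), (∀ x, D.N x = N) → ∃ r₀ > 0, ∀ K₀ : Set E, IsCompact K₀ →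
      (∀ y ∈ K₀, NZ pY v' y) →
      {g : G | ∃ y ∈ K₀, ∃ b ∈ ball D.b₀ r₀, Sh pY v' F D (g⁻¹ • y) b}.Finite) :
    LFin Γ m p v F := by
  classical
  refine ⟨⊥, fun g hg y => ?_, fun g hg y e _ ξ => ?_, fun y₀ e b γ t h => ?_⟩
  · rw [Subgroup.mem_bot] at hg
    rw [hg, one_smul]
  · rw [Subgroup.mem_bot] at hg
    rw [hg, one_smul]
  set D : LeafDat q R 0 H :=
    { b₀ := b (e (p y₀)), γ := γ, t := t, N := fun _ => N, γan := h.nf.γan, imm := h.nf.imm,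
      tan := h.tan, Nan := analyticAt_const, inj := fun _ _ _ => Subsingleton.elim _ _ } with hD
  obtain ⟨r₀, hr₀, hfin⟩ := hlf D fun _ => rfl
  have : LocallyCompactSpace X := ChartedSpace.locallyCompactSpace (Cm n) X
  obtain ⟨K₁, hK₁, hK₁c, hK₁z⟩ := exists_cpt hG.cov (nz_near hG.cov hv h.nf)
  have hfq : Finite (Γ ⧸ G) := Subgroup.finite_quotient_of_finiteIndex
  let τ : Γ ⧸ G → Γ := Quotient.out
  set K₀ : Set E := ⋃ a : Γ ⧸ G, (fun y => (τ a)⁻¹ • y) '' K₁ with hK₀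
  have hK₀c : IsCompact K₀ := isCompact_iUnion fun a => hK₁c.image (hG.cont _)
  have hK₀z : ∀ y ∈ K₀, NZ pY v' y := by
    intro y hy
    obtain ⟨a, z, hz, rfl⟩ := mem_iUnion.1 hy
    obtain ⟨e₁, he₁, ξ, hξ⟩ := hK₁z z hz
    refine nz_Y hπ hcomp hrel ⟨e₁, ?_, ξ, ?_⟩
    · show At e₁ (p ((τ a)⁻¹ • z))
      rw [H10.p_smul' hG]
      exact he₁
    · have h1 := hv.inv z ((τ a)⁻¹ • z) e₁ he₁ (H10.p_smul' hG _ _).symm ξ
      rw [← norm_ne_zero_iff] at hξ ⊢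
      rwa [← h1]
  have hA := hfin K₀ hK₀c hK₀z
  set A : Set G := {g : G | ∃ y ∈ K₀, ∃ b ∈ ball D.b₀ r₀, Sh pY v' F D (g⁻¹ • y) b} with hAdef
  have hfin2 : (⋃ a : Γ ⧸ G, (fun g : G => ((τ a * (g : Γ) : Γ) : Γ ⧸ (⊥ : Subgroup Γ))) '' A).Finite :=
    finite_iUnion fun a => hA.image _
  refine ⟨r₀, hr₀, K₁, hK₁, hfin2.subset ?_⟩
  rintro _ ⟨g, rfl, y, hy, x, hx, hsh⟩
  have hmem : (τ (g : Γ ⧸ G))⁻¹ * g ∈ G := by
    rw [← QuotientGroup.eq]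
    exact Quotient.out_eq _
  refine mem_iUnion.2 ⟨(g : Γ ⧸ G), ⟨(τ (g : Γ ⧸ G))⁻¹ * g, hmem⟩, ?_, ?_⟩
  · refine ⟨(τ (g : Γ ⧸ G))⁻¹ • y, mem_iUnion.2 ⟨_, y, hy, rfl⟩, x, hx, ?_⟩
    have h1 : ((⟨(τ (g : Γ ⧸ G))⁻¹ * g, hmem⟩ : G)⁻¹ • (τ (g : Γ ⧸ G))⁻¹ • y : E) = g⁻¹ • y := by
      rw [Subgroup.smul_def, smul_smul]
      congr 1
      simp
    rw [h1]
    exact sh_Y hπ hcomp hpY hrel D hsh
  · show ((τ (g : Γ ⧸ G) * ((τ (g : Γ ⧸ G))⁻¹ * g) : Γ) : Γ ⧸ (⊥ : Subgroup Γ)) = _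
    rw [mul_inv_cancel_left]

end

end Vale.Agent.P284.H837.N
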