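import Vale.Agent.P284.H837.N.End
import Vale.Agent.P284.H213.N.S
import Vale.Agent.P284.H213.G.Rep
import Vale.Agent.P284.H478.G.Leaf
import Vale.Agent.P284.H402.T.LimAtT
import Vale.Agent.P284.H15.T.LimF
import Vale.Agent.P284.H812.NSF18
import Vale.Agent.P284.H625.N.Out

/-!
# P284 (helper837), program N: the core

`X` compact Kähler with `NoV n X` (e.g. `X` special): all data are natural under the whole group `Γ`;
`G` normal of finite index in `Γ`, `Y = E / G`; the limit form of `(Y, G)` is summed over the cosets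
(helper625, helper988, helper174, helper551, helper494), its leaf data of full rank are summed, too, and
descend to `X`.
-/

open scoped Manifold ContDiff Topology
open Filter Set Metric

noncomputable section

namespace Vale.Agent.P284.H837.N

open Vale.Agent.P272.K Vale.Agent.P284.H894 Vale.Agent.P284.H894.G Vale.Agent.P284.H894.V
  Vale.Agent.P284.H894.W Vale.Agent.P284.H213.Grp Vale.Agent.P284.H119.Kaz
  Vale.Agent.P284.H573 Vale.Agent.P284.H395 Vale.Agent.P284.H378 Vale.Agent.P284.H837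
  Vale.Agent.P284.H501.Core Vale.Agent.P284.H885 Vale.Agent.P284.H619 Vale.Agent.P284.H988.N
  Vale.Agent.P284.H625.N Vale.Agent.P284.H501.T Vale.Agent.P284.H494.N Vale.Agent.P284.H478.G
  Vale.Agent.P284.H213.N Vale.Agent.P284.H213.Q

/-- **The limit** on every compact Kähler manifold, `NPkg0`, `K` without property (T) -/
theorem limNT0 (q : ℕ) : LimNT0 q :=
  limNT0_all (fun n X _ _ _ _ _ _ w hw E Γ _ _ _ _ p hG hK =>
    H15.T.limK n X w hw E Γ p hG hK) (fun _ hq => H402.T.limAtT hq) q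

/-- **The core of program N.** -/
theorem coreN {n : ℕ} {X : Type} [TopologicalSpace X] [T2Space X]
    [CompactSpace X] [ConnectedSpace X] [ChartedSpace (Cm n) X] [IsManifold 𝓘(ℂ, Cm n) ω X]
    (hX : NoV n X) {w : Chart n X → Cm n → Matrix (Fin n) (Fin n) ℂ} (hw : IsKahler w)
    {E Γ : Type} [TopologicalSpace E] [ConnectedSpace E] [Group Γ] [MulAction Γ E]
    {p : E → X} (hp : IsGalois Γ p) {q : ℕ} {F : E → Cm q} {G K : Subgroup Γ}
    {A : Γ →* (Cm q ≃ₗ[ℂ] Cm q)} {c : Γ → Cm q} (hB : ∃ B, HolB p w F B)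
    (heq : ∀ g y, F (g • y) = A g (F y) + c g) (hreg : ∃ y, Reg (n := n) p F y)
    (hgc : GenConn (n := n) p F) (hN : NPkgA Γ G q A c K)
    (hcase : H573.DK.FinRep K ∨ (NulGStmt ∧ DKGStmt ∧ FinRepIn Γ K)) (hKz : ¬ Kazhdan K) :
    False := by
  obtain ⟨B, hFB⟩ := hB
  have hGn := hN.dat.normal
  have hGf := hN.dat.fi
  have iFin : Fintype (Γ ⧸ G) := Subgroup.fintypeQuotientOfFiniteIndex
  obtain ⟨Y, _, _, _, _, _, _, pY, π, hπ, -, hpY, hcomp⟩ := H885.exists_quo n X E Γ p hp G hGf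
  have hwY : IsKahler (H885.pull π w) := hπ.isKahler hw
  have hFY : ∃ B, HolB pY (H885.pull π w) F B := ⟨B, hπ.holB hcomp hFB⟩
  have hc : ∀ (g : G) y, F (g • y) = F y + c g := by
    intro g y
    have h1 := heq (g : Γ) y
    rw [hN.dat.one _ g.2] at h1
    exact h1
  have hregY : ∃ y, Reg (n := n) pY F y := by
    obtain ⟨y, hy⟩ := hreg
    exact ⟨y, (reg_fl hπ hcomp).2 hy⟩
  have hgcY : GenConn (n := n) pY F := (genConn_fl hπ hcomp).2 hgc
  have hN0 := hN.to0
  set K' : Subgroup G := K.subgroupOf G with hK'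
  have hKe : K' ≃* K := Subgroup.subgroupOfEquivOfLe hN.le
  have hKz' : ¬ Kazhdan K' := fun h => hKz (h.of_equiv hKe)
  -- the limit on `Y`
  obtain ⟨W, iW1, iW2, iW3, ρ, S, Θ, M₀, hS, hρ, hM₀, hpot⟩ :=
    limNT0 q n Y _ hwY E G pY hpY F (fun g => c g) K' hFY hc hregY hgcY hN0 hKz'
  -- the sum
  obtain ⟨ρt, St, Θt, M₁, hO⟩ := sum_out hN hπ hcomp hp hpY hFB heq hS hρ hM₀ hpot
  have hmain : LeafX q pY F (ρt.comp G.subtype) (pb π Θt) ∧
      GKer pY F K' (ρt.comp G.subtype) (pb π Θt) ∧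
      DKAll pY F (fun g : G => c g) K' (ρt.comp G.subtype) (pb π Θt) := by
    rcases hcase with hfr | ⟨hNul, hDK, hfr⟩
    · exact leafX_fr H812.NSF.ns2 hwY hpY hFY hc hregY hgcY hN0
        (H213.T3.finRep_equiv hKe hfr) hO.relY hO.cent hO.meagre hO.pot hO.just
    · exact leafX_g hNul hDK H812.NSF.ns2 hwY hpY hFY hc hregY hgcY hN0
        (H213.G.FinRepIn.of_finiteIndex hfr G hGf) hO.relY hO.cent hO.meagre hO.pot hO.just
  obtain ⟨⟨r, m, H, i1, i2, i3, v, U, N, 𝒢, h𝒢, hL⟩, hker, hdk⟩ := hmain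
  obtain ⟨V, hV, -, -, Ut, 𝒢t, h𝒢t, hLt⟩ := leaf_out hπ hcomp hp hpY hFB heq hO hL
  exact coreEnd hX hp hGf (aff_of heq) hπ hcomp hwY hpY hFY hc hN0 hO.cent hV h𝒢t hLt hker hdk

/-- **CORE-N** -/
theorem coreTN : CoreTN noVC := by
  intro n X _ _ _ _ _ _ hD w hw E Γ _ _ _ _ p hp q F G K A c hB heq hreg hgc hN hfr hKz
  exact coreN hD hw hp hB heq hreg hgc hN (Or.inl hfr) hKz

/-- **CORE-N**, representations of `Γ` -/
theorem coreTGN (hNul : NulGStmt) (hDK : DKGStmt) : CoreTGN noVC := by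
  intro n X _ _ _ _ _ _ hD w hw E Γ _ _ _ _ p hp q F G K A c hB heq hreg hgc hN hfr hKz
  exact coreN hD hw hp hB heq hreg hgc hN (Or.inr ⟨hNul, hDK, hfr⟩) hKz

end Vale.Agent.P284.H837.N
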