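import Vale.Agent.P284.H837.N.S
import Vale.Agent.P284.H174.NoFE

/-!
# P284 (helper837), program N: consequences of `NoV`
-/

open scoped Manifold ContDiff Topology
open Filter Set Metric

noncomputable section

namespace Vale.Agent.P284.H837.N

open Vale.Agent.P272.K Vale.Agent.P284.H573 Vale.Agent.P284.H619 Vale.Agent.P284.H174
  Vale.Agent.P284.H174.GD Vale.Agent.P284.H894 Vale.Agent.P284.H894.G Vale.Agent.P284.H837
  Vale.Agent.P284.H248 Vale.Agent.P284.H998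

/-- `NoV` without the equivariance of `v` -/
theorem noV_noeqv {n : ℕ} {X : Type} [TopologicalSpace X] [ChartedSpace (Cm n) X]
    [IsManifold 𝓘(ℂ, Cm n) ω X] (h : NoV n X)
    (E Γ : Type) [TopologicalSpace E] [ConnectedSpace E] [Group Γ] [MulAction Γ E]
    (p : E → X) (hG : IsGalois Γ p) (q : ℕ) (F : E → Cm q)
    (hF : ∀ (y : E) (e : Chart n X), At e (p y) → ∃ f : Cm n → Cm q,
      (∀ᶠ y' in 𝓝 y, F y' = f (e (p y'))) ∧ AnalyticAt ℂ f (e (p y)))
    (hc : Aff Γ F)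
    (H : Type) [NormedAddCommGroup H] [InnerProductSpace ℂ H] [CompleteSpace H]
    (R m : ℕ) (hR : 1 ≤ R) (hm : 1 ≤ m) (v : E → Chart n X → (Fin R → Cm n) → H)
    (hv : HForm n R m p H v)
    (hN : ∃ y₀ e b γ t, NFF m p v F y₀ e b γ t) (hL : LFin Γ m p v F) : False := by
  obtain ⟨y₀, e, b, γ, t, hN⟩ := hN
  refine h E Γ p hG q F hF hc (EQ.VS p v) R m hR hm (EQ.vS p v) (EQ.vS_hform hG.cov hv)
    (fun g => ?_) ⟨y₀, e, b, _, t, EQ.nff_vS hG.cov hN⟩ (EQ.lfin_vS hG.cov hL)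
  obtain ⟨U, hU⟩ := EQ.vS_eqv hG hv g
  exact ⟨U.toLinearIsometry, hU⟩

/-- no form fixed by a subgroup of finite index -/
theorem noFE_of_noV {n : ℕ} {X : Type} [TopologicalSpace X] [ChartedSpace (Cm n) X]
    [IsManifold 𝓘(ℂ, Cm n) ω X] (h : NoV n X) : NoFE n X := by
  intro E Γ _ _ _ _ p hG S hSf R m hR hm H _ _ _ v hv hfix hgood
  obtain ⟨y₀, e, b, γ, hN⟩ := hgood
  refine noV_noeqv h E Γ p hG 0 (fun _ => 0)
    (fun y e _ => ⟨fun _ => 0, Eventually.of_forall fun _ => rfl, analyticAt_const⟩)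
    (aff_of_trans (c := fun _ => 0) fun g y => (add_zero _).symm) H R m hR hm v hv
    ⟨y₀, e, b, γ, fun _ => 0, hN, analyticAt_const, Eventually.of_forall fun _ => rfl⟩
    (EQ.lfin_of_finite S hSf (fun _ _ _ => rfl) hfix)

end Vale.Agent.P284.H837.N
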