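import Vale.Agent.P284.H837.N.L7
import Vale.Agent.P284.H837.N.V
import Vale.Agent.P284.H988.N.Leaf0
import Vale.Agent.P284.H625.N.SumS

/-!
# P284 (helper837), program N: the end of the core

A form `v` on `p : E → X` (norm invariant under the whole group `Γ`) which is leaf data of full rank for
`pY : E → Y = E / G` contradicts `NoV n X`.
-/

open scoped Manifold ContDiff Topology
open Filter Set Metric

noncomputable section

set_option linter.unusedSectionVars false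

namespace Vale.Agent.P284.H837.N

open Vale.Agent.P272.K Vale.Agent.P284.H894 Vale.Agent.P284.H894.G Vale.Agent.P284.H894.V
  Vale.Agent.P284.H894.W
  Vale.Agent.P284.H573 Vale.Agent.P284.H395 Vale.Agent.P284.H378 Vale.Agent.P284.H837
  Vale.Agent.P284.H501.Core Vale.Agent.P284.H885 Vale.Agent.P284.H619 Vale.Agent.P284.H988.N
  Vale.Agent.P284.H625.N Vale.Agent.P284.H501.T

section
variable {n : ℕ} {X Y : Type} [TopologicalSpace X] [TopologicalSpace Y]
  [ChartedSpace (Cm n) X] [ChartedSpace (Cm n) Y] {π : Y → X}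
  {E : Type} [TopologicalSpace E] {p : E → X} {pY : E → Y}
  {H : Type} [NormedAddCommGroup H] [InnerProductSpace ℂ H] {R m : ℕ}

/-- `pb π v` is `v` in the charts of `Y` -/
theorem brEq_pb (hπ : Etale n π) (hcomp : ∀ y, π (pY y) = p y)
    {v : E → Chart n X → (Fin R → Cm n) → H} (hv : HForm n R m p H v) :
    BrEq π pY v (pb π v) := by
  intro y e' e he' hb ξ
  have h1 := hπ.at_base he'
  have h2 : At e (p y) := by rw [← hcomp]; exact Etale.at_branch hb he'
  rw [hcomp] at h1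
  exact hπ.tensor_base (v := v y) hb he' (fun ξ => by
    rw [hcomp]; exact hv.change y _ _ h1 h2 ξ) ξ

/-- normal forms for `Y` are normal forms for `X` -/
theorem isNF_X (hπ : Etale n π) (hcomp : ∀ y, π (pY y) = p y)
    {v : E → Chart n X → (Fin R → Cm n) → H} {y₀ : E} {e' : Chart n Y} {b : Cm n → Cm R}
    {γ : Cm R → H} (h : IsNF m pY (pb π v) y₀ e' b γ) :
    IsNF m p v y₀ (base π e') b γ := by
  have hx : ∀ y, e' (pY y) = base π e' (p y) := fun y => by
    rw [hπ.apply_base h.mem, hcomp]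
  have hm := hπ.at_base h.mem
  rw [hcomp] at hm
  refine ⟨hm, ?_, ?_, ?_, ?_, ?_⟩
  · rw [← hx]; exact h.ban
  · rw [← hx]; exact h.bsurj
  · rw [← hx]; exact h.γan
  · rw [← hx]; exact h.imm
  · filter_upwards [h.nf] with y hy ξ
    rw [← hx]
    exact hy ξ

end

section
variable {n q : ℕ} {X : Type} [TopologicalSpace X] [ChartedSpace (Cm n) X]
  [IsManifold 𝓘(ℂ, Cm n) ω X]
  {Y : Type} [TopologicalSpace Y] [T2Space Y] [CompactSpace Y] [ConnectedSpace Y]
  [ChartedSpace (Cm n) Y] [IsManifold 𝓘(ℂ, Cm n) ω Y]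
  {wY : Chart n Y → Cm n → Matrix (Fin n) (Fin n) ℂ}
  {E Γ : Type} [TopologicalSpace E] [ConnectedSpace E] [Group Γ] [MulAction Γ E]
  {p : E → X} {pY : E → Y} {π : Y → X} {G : Subgroup Γ} {F : E → Cm q} {c : G → Cm q}
  {K : Subgroup G} {W : Type} [NormedAddCommGroup W] [InnerProductSpace ℂ W] [CompleteSpace W]
  {ρ : G →* (W ≃ₗᵢ[ℂ] W)} {Θ : E → Chart n Y → (Cm n →L[ℂ] W)}

theorem coreEnd (hX : NoV n X) (hG : IsGalois Γ p) (hfi : G.FiniteIndex) (hAff : Aff Γ F)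
    (hπ : Etale n π) (hcomp : ∀ y, π (pY y) = p y) (hwY : IsKahler wY) (hpY : IsGalois G pY)
    (hF : ∃ B, HolB pY wY F B) (hc : ∀ (g : G) y, F (g • y) = F y + c g) (hN : NPkg0 G q c K)
    (hρ : ∀ g, (∀ k ∈ K, g * k = k * g) → ρ g = 1)
    {r m : ℕ} {H : Type} [NormedAddCommGroup H] [InnerProductSpace ℂ H] [CompleteSpace H]
    {v : E → Chart n X → (Fin (q + (r + 1)) → Cm n) → H} (hv : HForm n (q + (r + 1)) m p H v)
    {U : G → (H →ₗᵢ[ℂ] H)} {N : Cm 0 →L[ℂ] Cm q} {𝒢 : Set E} (h𝒢 : 𝒢.Nonempty)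
    (hL : LeafE (q + (r + 1)) pY F m (pb π v) U ρ Θ N 𝒢)
    (hker : GKer pY F K ρ Θ) (hdk : DKAll pY F c K ρ Θ) : False := by
  obtain ⟨B, hFB⟩ := hF
  have hFX : ∀ (y : E) (e : Chart n X), At e (p y) → ∃ f : Cm n → Cm q,
      (∀ᶠ y' in 𝓝 y, F y' = f (e (p y'))) ∧ AnalyticAt ℂ f (e (p y)) := by
    intro y e he
    rw [← hcomp] at he
    obtain ⟨e', he', hb⟩ := hπ.exists_branch he
    obtain ⟨f, h1, h2⟩ := H221.holB_an hFB y he'
    have hx : ∀ y, e' (pY y) = e (p y) := fun y => by rw [hb.apply, hcomp]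
    refine ⟨f, ?_, by rw [← hx]; exact h1⟩
    filter_upwards [h2] with y' hy'
    rw [hy', hx]
  have hIS : IsSub c K N (⊥ : Subgroup G) := by
    intro g
    have hNr : ∀ x : Cm q, x ∈ LinearMap.range (N : Cm 0 →ₗ[ℂ] Cm q) ↔ x = 0 := by
      intro x
      constructor
      · rintro ⟨z, rfl⟩
        have : z = 0 := Subsingleton.elim _ _
        rw [this, map_zero]
      · rintro rfl
        exact zero_mem _
    rw [Subgroup.mem_bot, hNr]
    constructor
    · rintro rfl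
      exact ⟨fun h _ => by rw [one_mul, mul_one], hN.lat.map_one⟩
    · rintro ⟨h1, h2⟩
      have : (K.subgroupOf K).FiniteIndex := by
        rw [Subgroup.subgroupOf_self]
        infer_instance
      exact hN.cent K le_rfl inferInstance g h2 h1
  obtain ⟨y₀, hy₀⟩ := h𝒢
  refine noV_noeqv hX E Γ p hG q F hFX hAff H (q + (r + 1)) m (by omega) hL.m_pos v hv ?_ ?_
  · obtain ⟨y, e', b, γ, t, h⟩ := nff_of_leaf hL hy₀
    have hx : ∀ y', e' (pY y') = base π e' (p y') := fun y' => by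
      rw [hπ.apply_base h.nf.mem, hcomp]
    refine ⟨y, base π e', b, γ, t, isNF_X hπ hcomp h.nf, by rw [← hx]; exact h.tan, ?_⟩
    filter_upwards [h.eq] with y' hy'
    rw [← hx]; exact hy'
  · refine lfin_big hπ hcomp hG hpY.cov G hfi hv (brEq_pb hπ hcomp hv) N fun D hD => ?_
    obtain ⟨r₀, hr₀, hfin⟩ := lf0 n q (r + 1) 0 (q + (r + 1)) m Y wY hwY E G pY hpY F c K ⟨B, hFB⟩ hc
      hN W H ρ Θ hρ (pb π v) U N 𝒢 hL hker (hdk (r + 1) (q + (r + 1)) 0 m H (pb π v) U N 𝒢 hL) D hD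
      ⊥ hIS
    refine ⟨r₀, hr₀, fun K₀ hK₀ hz => ?_⟩
    have hinj : Function.Injective (fun g : G => (g : G ⧸ (⊥ : Subgroup G))) := by
      intro a b hab
      have h1 : a⁻¹ * b ∈ (⊥ : Subgroup G) := QuotientGroup.eq.1 hab
      rw [Subgroup.mem_bot] at h1
      exact (inv_mul_eq_one.1 h1)
    refine Set.Finite.of_finite_image ((hfin K₀ hK₀ hz).subset ?_) hinj.injOn
    rintro _ ⟨g, ⟨y, hy, b, hb, hsh⟩, rfl⟩
    exact ⟨g, rfl, y, hy, b, hb, hsh⟩

end

end Vale.Agent.P284.H837.N
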