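import Vale.Agent.P284.H837.N.Core
import Vale.Agent.P284.H213.N.One
import Vale.Agent.P284.H608.K.Fin

/-!
# P284 (helper837), program N: special compact Kähler manifolds, unconditional

`X` compact Kähler and special; nothing is assumed on its finite étale coverings.
-/

noncomputable section

namespace Vale.Agent.P284.H837.N

open Vale.Agent.P284.H213.N Vale.Agent.P284.H213.K Vale.Agent.P284.H478.G

/-- **MF-N**, unconditional -/
theorem mfN : MFN noVC := mfN_noV Vale.Agent.P284.H608.K.exK Vale.Agent.P284.H501.K.t5K

/-- **T1'** for special compact Kähler manifolds: every amenable quotient `Q` of `π₁(X)` is virtually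
abelian, of rank at most `2 n`. -/
theorem t1N : MainPiK spC PQ := mainPiK_sp Vale.Agent.P284.H553.K8.spKN (mainQN mfN coreTN)

/-- **T3** for special compact Kähler manifolds -/
theorem t3N : MainPiK spC PN := mainPiK_sp Vale.Agent.P284.H553.K8.spKN (mainNN mfN coreTN)

/-- **T3G** for special compact Kähler manifolds -/
theorem t3gN (hNul : NulGStmt) (hDK : DKGStmt) : MainPiK spC Vale.Agent.P284.H213.G.PNG :=
  mainPiK_sp Vale.Agent.P284.H553.K8.spKN (mainNGN mfN (coreTGN hNul hDK))

end Vale.Agent.P284.H837.N
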