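import Vale.Agent.P284.H837.N.S
import Vale.Agent.P284.H625.N.Sp

/-!
# P284 (helper837), program N: special projective manifolds have `NoV`
-/

noncomputable section

namespace Vale.Agent.P284.H837.N

/-- special projective manifolds (helper625) -/
theorem spPN : SpPN := by
  intro n X _ _ _ _ _ _ ι _ P hS E Γ _ _ _ _ p hG q F hF hc
  exact Vale.Agent.P284.H625.N.spStmtN n X ι P hS E Γ p hG q F hF hc

end Vale.Agent.P284.H837.N
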